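import Vale.Agent.P352X.R.JC.A1
import Vale.Agent.P352Z.R.Br

/-!
# P352Z, row JC: the modular conjugation of the wedge and the similitudes
-/

namespace Vale.Agent.P352X.ZZ.JCa
export Vale.Agent.P352X.JCa (U_split anti cm_rj cp_rj in_sim isLor_jL jL_eq jL_one jo jo_cov jr_zero lor op_cov rj
  rj_apply sim_jL sim_rj test_jr tp_rj)
end Vale.Agent.P352X.ZZ.JCa

set_option linter.all false

noncomputable section

open MeasureTheory Filter Topology Set
open scoped SchwartzMap ComplexConjugate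

namespace Vale.Agent.P352X.ZZ.JCa

open Vale.Agent.P352 Vale.Agent.P352.GF Vale.Agent.P352.BW
open Vale.Agent.P352.H246 Vale.Agent.P352.H496 Vale.Agent.P352.H755 Vale.Agent.P352.H15
open Vale.Agent.P352.BW.T (Ten op tp cp rq cm Afs)
open Vale.Agent.P352.BW.H49 (Adj)
open Vale.Agent.P132 (ModData jconj)
open UniformSpace (Completion)

/-! ### the reflection -/

/-! ### one field operators -/

variable {D : Type*} [NormedAddCommGroup D] [InnerProductSpace ℂ D]

variable {Q : Theory D} {A : (V → V) → D → D} {k : ℕ} {Φ Ψ : (Fin k → Ix) → Fld D}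
  {a : (Fin k → Ix) → ℂ} {f : Fn} {L : Ix → V}

variable (c : Ctx D)

/-- the formula for `J X J` holds for the test functions in `O` -/
def Key (O : Set V) : Prop := ∀ (k : ℕ) (Φ Ψ : (Fin k → Ix) → Fld D) a f (v v' : D),
  Ten c.Q k Φ → Ten c.Q k Ψ → Adj Φ Ψ → In O f → c.J v = v' →
    c.J (op Φ a f v : D) = (jo Ψ a f v' : D)

lemma key0 : Key c (Wdg va vb 0) := by
  intro k Φ Ψ a f v v' hΦ hΨ ad hf hv
  have w := c.hN.wal null_va null_vb md_ab
  have t := T.t1 _ _ c.hN.toRep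
  have h1 := t.wr _ _ _ null_va null_vb md_ab (t.ib _ _ hf)
  refine anti c.E (T.afs_of (fun v w => ad a f v w hf.1) (w.aff k Φ _ _ hΦ hf))
    (T.afs_of (fun v w => ad.symm _ _ v w h1.1) (w.aff' k Ψ _ _ hΨ h1)) ?_ hv
  rw [← H49.jw c.hN null_va null_vb md_ab c.E hΦ hΨ ad a hf, (t.cj k _ _ (bar f)).1,
    T.bar_cp, T.bar_bar']
  simp only [Complex.conj_conj]

/-- Reeh and Schlieder -/
lemma rs {O : Set V} (hO : Big (MW O)) (S : Submodule ℂ D) (h0 : c.Q.vac ∈ S)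
    (hS : ∀ k Φ a f v, Ten c.Q k Φ → In O f → v ∈ S → op Φ a f v ∈ S) : Dense (S : Set D) := by
  refine (dense_big (Q := T.tT1 (T.t1 _ _ c.hN.toRep) c.hG) hO).mono fun v hv => ?_
  have hv' : P352.PW (T.tT1 (T.t1 _ _ c.hN.toRep) c.hG) (MW O) v := hv
  induction hv' with
  | vac => exact h0
  | add _ _ h1 h2 => exact S.add_mem (h1 ‹_›) (h2 ‹_›)
  | smul c _ h1 => exact S.smul_mem c (h1 ‹_›)
  | @fld B g v hB hg hw ih =>
    obtain ⟨k, Φ, μ, hΦ, rfl⟩ : T.TF c.Q B := hB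
    have := hS k Φ (Pi.single μ 1) (fl g) v hΦ (In_fl.2 hg) (ih hw)
    rwa [T.op_single] at this

variable {c}

lemma inter {O O' : Set V} (K : Key c O) (hO : Big (MW O')) (hL : IsLor L) (y : V) (h1 : O' ⊆ O)
    (h2 : ∀ x, sim 1 L y x ∈ O' → x ∈ O) (z : Completion D) :
    c.J (Ug c.Q 1 L y z) = Ug c.Q 1 (jL L) (jr y) (c.J z) := by
  have R := c.hN.toRep
  have hJ := isLor_jL hL
  let S : Submodule ℂ D :=
    { carrier := {w | ∃ v v' : D, w = c.Q.U 1 L y v ∧ c.J v = v' ∧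
        c.J w = (c.Q.U 1 (jL L) (jr y) v' : D)}
      add_mem' := by
        rintro _ _ ⟨v, v', rfl, a1, a2⟩ ⟨w, w', rfl, b1, b2⟩
        exact ⟨v + w, v' + w', (U_add one_pos hL y v w).symm,
          by rw [Completion.coe_add, Completion.coe_add, map_add, a1, b1],
          by rw [U_add one_pos hJ, Completion.coe_add, Completion.coe_add, map_add, a2, b2]⟩
      zero_mem' := by
        have e : ∀ {L}, IsLor L → ∀ y, c.Q.U 1 L y 0 = 0 := fun h y => by
          simpa using U_smul (Q := c.Q) one_pos h y 0 0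
        exact ⟨0, 0, (e hL y).symm, by rw [Completion.coe_zero, map_zero],
          by rw [e hJ, Completion.coe_zero, map_zero]⟩
      smul_mem' := by
        rintro t _ ⟨v, v', rfl, a1, a2⟩
        exact ⟨t • v, conj t • v', (U_smul one_pos hL y t v).symm,
          by rw [Completion.coe_smul, Completion.coe_smul, map_smulₛₗ, a1],
          by rw [U_smul one_pos hJ, Completion.coe_smul, Completion.coe_smul, map_smulₛₗ, a2]⟩ }
  have hd : Dense (S : Set D) := by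
    refine rs c hO S ⟨_, _, (c.Q.U_vac 1 L y one_pos hL).symm, c.E.J_xi, ?_⟩ ?_
    · rw [c.Q.U_vac _ _ _ one_pos hJ]
      exact c.E.J_xi
    · rintro k Φ a f _ hΦ hf ⟨v, v', rfl, a1, a2⟩
      obtain ⟨Ψ, hΨ, ad⟩ := T.adj_of R hΦ
      exact ⟨_, _, op_cov R hΦ a hL y hf.1 v, K k Φ Ψ _ _ v v' hΦ hΨ ad (in_sim one_pos hL y hf h2) a1,
        by rw [K k Φ Ψ a f _ _ hΦ hΨ ad ⟨hf.1, hf.2.1, hf.2.2.trans h1⟩ a2, jo_cov R hΨ a hL y hf.1]⟩
  have u : ∀ z, star (Ug c.Q 1 L y) (Ug c.Q 1 L y z) = z := fun z =>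
    congrArg (fun T : Completion D →L[ℂ] Completion D => T z) (Grp.uni R 1 L y).1
  have h3 := Continuous.ext_on
    (Completion.denseRange_coe.dense_image (Completion.continuous_coe D) hd) c.J.continuous
    (g := fun w => Ug c.Q 1 (jL L) (jr y) (c.J (star (Ug c.Q 1 L y) w))) (by fun_prop) ?_
  · rw [congrFun h3, u]
  · rintro _ ⟨_, ⟨v, v', rfl, a1, a2⟩, rfl⟩
    refine a2.trans ?_
    show _ = Ug c.Q 1 (jL L) (jr y) (c.J (star (Ug c.Q 1 L y) (c.Q.U 1 L y v : D)))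
    rw [← Grp.coe one_pos hL, u, a1, Grp.coe one_pos hJ]

/-- translations -/
theorem ut1 (y : V) (z : Completion D) :
    c.J (Ug c.Q 1 GF.one y z) = Ug c.Q 1 GF.one (jr y) (c.J z) := by
  have h := inter (key0 c) (big_two (a := vb) (b := va) (c := va - vb) (M := |al y|)
    (M' := -|be y|) one_pos one_pos (by simp [md_vb]) (by simp [md_va])) H496.isLor_one y ?_ ?_ z
  · rwa [jL_one] at h
  · intro x ⟨a, b⟩
    refine ⟨?_, ?_⟩ <;> rw [sub_zero]
    · linarith [abs_nonneg (be y)]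
    · linarith [abs_nonneg (al y)]
  · intro x ⟨a, b⟩
    rw [sim_one'] at a b
    simp only [md_va, md_vb, al_add, be_add] at a b
    refine ⟨?_, ?_⟩ <;> simp only [md_va, md_vb, sub_zero]
    · linarith [neg_abs_le (be y)]
    · linarith [le_abs_self (al y)]

lemma u_inj {s : ℝ} {y : V} {z w : Completion D} (h : Ug c.Q s L y z = Ug c.Q s L y w) : z = w := by
  have u : ∀ z, star (Ug c.Q s L y) (Ug c.Q s L y z) = z := fun z =>
    congrArg (fun T : Completion D →L[ℂ] Completion D => T z) (Grp.uni c.hN.toRep s L y).1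
  rw [← u z, h, u]

lemma key1 : Key c univ := by
  intro k Φ Ψ a f v v' hΦ hΨ ad hf hv
  have R := c.hN.toRep
  have h1 := H496.isLor_one
  obtain ⟨y, hy⟩ := H49.ex_tr hf.2.1
  have hg := H49.in_tr hf.1 hf.2.1 hy
  have e1 := op_cov R hΦ a h1 y hg.1 v
  have e2 := jo_cov R hΨ a h1 y hg.1 v'
  rw [T.tp_one, H49.tr_sim] at e1 e2
  rw [jL_one] at e2
  refine u_inj (c := c) (s := 1) (L := GF.one) (y := jr y) ?_
  rw [← ut1, Grp.coe one_pos h1, Grp.coe one_pos h1, ← e1, ← e2]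
  refine key0 c k Φ Ψ a _ _ _ hΦ hΨ ad hg ?_
  rw [← Grp.coe one_pos h1, ← Grp.coe one_pos h1, ut1, hv]

lemma dil {s : ℝ} (hs : 0 < s) (z : Completion D) :
    c.J (Ug c.Q s GF.one 0 z) = Ug c.Q s GF.one 0 (c.J z) := by
  have h1 := H496.isLor_one
  have hU := ublock c.hN.toRep
  obtain ⟨W, hW⟩ := hU.lin s GF.one 0 hs h1
  have e : ∀ x, sim s GF.one 0 x = s • x := fun x => by
    rw [Grp.sim_eq, sim_one', add_zero, zero_add]
  have p : ∀ {t : ℝ} {x}, 0 < t → x ∈ Wdg va vb 0 → t • x ∈ Wdg va vb 0 := fun ht ⟨a, b⟩ => by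
    rw [sub_zero] at a b
    exact ⟨by rw [sub_zero, md_smul]; exact mul_neg_of_pos_of_neg ht a,
      by rw [sub_zero, md_smul]; exact mul_pos ht b⟩
  have h := c.hN.img_alg (y := 0) hs h1 (O := Wdg va vb 0) (O' := Wdg va vb 0) (subset_antisymm
    (by rintro _ ⟨x, hx, rfl⟩; exact e x ▸ p hs hx) fun x hx =>
      ⟨_, p (inv_pos.2 hs) hx, by rw [e, smul_inv_smul₀ hs.ne']⟩)
  rw [Ug_apply _ hs h1, Ug_apply _ hs h1, ← hW, ← hW]
  simp only [← hW] at h
  exact ((T.n _ _ c.E W (by rw [hW, hU.vac _ _ _ hs h1]) h.1 h.2).2 z).symm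

/-- **`J U(g) = U(j g j) J`** -/
theorem ug (c : Ctx D) (s : ℝ) (L : Ix → V) (a : V) (z : Completion D) (hs : 0 < s)
    (hL : IsLor L) : c.J (Ug c.Q s L a z) = Ug c.Q s (jL L) (jr a) (c.J z) := by
  have e : ∀ {L}, IsLor L → ∀ a z, Ug c.Q s L a z = Ug c.Q 1 L a (Ug c.Q s GF.one 0 z) := by
    intro L hL a z
    rw [← ContinuousLinearMap.mul_apply, Grp.ug_mul c.hN.toRep _ _ one_pos hs hL H496.isLor_one,
      one_mul, Grp.sim_zero]
    congr 2
    funext m n
    simp [sim, GF.one, bas]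
  rw [e hL, e (isLor_jL hL), ← dil hs]
  exact inter (O' := univ) key1 (fun _ => ⟨0, fun _ _ => trivial⟩) hL a subset_rfl (fun _ _ => trivial) _

theorem ut (c : Ctx D) (y : V) (z : Completion D) : c.J (Ut c.Q y z) = Ut c.Q (jr y) (c.J z) :=
  ut1 y z

end Vale.Agent.P352X.ZZ.JCa
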