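import Vale.Agent.P352X.R.JC.A2
import Vale.Agent.P352Z.R.JC.A1
import Vale.Agent.P352Z.R.CTX
import Vale.Agent.P352Z.R.GRP.C

/-!
# P352Z, row JC: the stress tensor, the group `S0`, the algebras of the wedges
-/

namespace Vale.Agent.P352X.ZZ.Grp
export Vale.Agent.P352X.Grp (Im.ext alg ga lga uni ut vac)
end Vale.Agent.P352X.ZZ.Grp
namespace Vale.Agent.P352X.ZZ.JCa
export Vale.Agent.P352X.JCa (Rl Rl.swap Rl.trans cp_rj ex_null isLor_jL jo jr_wdg jr_zero rj rl sim_jL sim_rj step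
  test_jr tp_rj trans wdg_img)
end Vale.Agent.P352X.ZZ.JCa

set_option linter.all false

noncomputable section

open MeasureTheory Filter Topology Set
open scoped SchwartzMap ComplexConjugate

namespace Vale.Agent.P352X.ZZ.JCa

open Vale.Agent.P352 Vale.Agent.P352.GF Vale.Agent.P352.BW
open Vale.Agent.P352.H246 Vale.Agent.P352.H496 Vale.Agent.P352.H755 Vale.Agent.P352.H15
open Vale.Agent.P352.BW.T (Ten op tp cp rq cm Afs)
open Vale.Agent.P352.BW.H49 (Adj)
open Vale.Agent.P132 (ModData jconj)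
open UniformSpace (Completion)

/-! ### pairs of null vectors -/

variable {a b a' b' a'' b'' : V}

variable {D : Type*} [NormedAddCommGroup D] [InnerProductSpace ℂ D] (c : Ctx D)

lemma alg_sim {s : ℝ} {L : Ix → V} (hs : 0 < s) (hL : IsLor L) (y : V) {O : Set V}
    (h : ∀ X ∈ c.N O, jconj c.J X ∈ c.N (jr '' O)) :
    ∀ X ∈ c.N (sim s L y '' O), jconj c.J X ∈ c.N (jr '' (sim s L y '' O)) := by
  intro X hX
  have u := Grp.uni c.hN.toRep s L y
  have u' := Grp.uni c.hN.toRep s (jL L) (jr y)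
  set U := Ug c.Q s L y
  set U' := Ug c.Q s (jL L) (jr y)
  have e : ∀ z, c.J (U z) = U' (c.J z) := fun z => ug c s L y z hs hL
  have u1 : ∀ z, U (star U z) = z := fun z =>
    congrArg (fun T : Completion D →L[ℂ] Completion D => T z) u.2
  have u2 : ∀ z, star U' (U' z) = z := fun z =>
    congrArg (fun T : Completion D →L[ℂ] Completion D => T z) u'.1
  have h1 : star U * X * U ∈ c.N O := (Grp.alg c.hN hs hL y O _).2 (by
    rwa [← mul_assoc, ← mul_assoc, u.2, one_mul, mul_assoc, u.2, mul_one])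
  have h2 := (Grp.alg c.hN hs (isLor_jL hL) (jr y) _ _).1 (h _ h1)
  have e1 : sim s (jL L) (jr y) '' (jr '' O) = jr '' (sim s L y '' O) := by
    simp only [image_image, sim_jL]
  have e2 : ∀ z, U (c.J (star U' z)) = c.J z := fun z => by
    rw [← c.E.J_J z, ← u1 (c.J z), e, u2, c.E.J_J, ← e, c.E.J_J]
  rw [e1] at h2
  convert h2 using 1
  ext z
  show c.J (X (c.J z)) = U' (c.J (star U (X (U (c.J (star U' z))))))
  rw [e2, ← e, u1]

theorem alg_of (h : (c.N (Wdg va vb 0)).commutant = c.N (Wdg vb va 0)) (a b y : V) (ha : IsNull a)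
    (hb : IsNull b) (hab : 0 < GF.mdot a b) :
    ∀ X ∈ c.N (Wdg a b y), jconj c.J X ∈ c.N (jr '' Wdg a b y) := by
  obtain ⟨L, h1, h2⟩ := trans ha hb hab
  rw [← (h2 y).1]
  exact alg_sim c one_pos h1 y fun X hX => by rw [jr_wdg, ← h]; exact c.E.J_mem X hX

/-! ### the null rotations -/

theorem ga (w : R2) (z : Completion D) : c.J (Ga c.Q w z) = Ga c.Q (-w) (c.J z) := by
  rw [Ga, ug c _ _ _ _ one_pos (Grp.lga w).1, jr_zero, Ga]
  congr 2
  refine T.mat_ext fun x => ?_
  have h := sim_jL (H746.nrt va (tv ((1 / 2 : ℝ) • w))) 1 0 (jr x)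
  rw [jr_jr, jr_zero] at h
  rw [h, (Grp.lga w).2, (Grp.lga (-w)).2]
  refine null_ext ?_ (by simp) (by simp)
  simp [d2_neg, d2_neg_l]
  ring

theorem s0 (t : ℝ) (z : Completion D) : c.J (c.S0 t z) = c.S0 (-t) (c.J z) := by
  have h := c.a3.intertwine_anti CTXp.pair3 c.a3.toCalc measurable_id
    c.J.toContinuousLinearEquiv.toContinuousLinearMap (v := z) (w := c.J z) (fun y => ?_)
    (SN.Bd.expI (r := fun k : P3 => t * (d2 k.2 k.2 / k.1)) (by fun_prop))
  · refine h.trans ?_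
    rw [Ctx.S0]
    congr 2
    funext k
    rw [← Complex.exp_conj, map_mul, Complex.conj_I, Complex.conj_ofReal]
    congr 1
    push_cast
    simp
  · have e : (fun p => conj (SN.ch pr3 y (id p))) = SN.ch pr3 (-y) := funext fun p => by
      rw [SN.ch, SN.ch, ← Complex.exp_conj, map_mul, Complex.conj_I, Complex.conj_ofReal]
      congr 1
      simp [pr3, d2_neg]
      ring
    rw [e, c.a3.Phi_ch]
    show c.J (Ut c.Q _ (Ga c.Q _ z)) = _
    rw [ut, ga]
    congr 2
    exact null_ext (by simp) (by simp) (by simp)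

/-! ### the stress tensor -/

lemma ten_T : Ten c.Q 2 fun μ => c.T (μ 0) (μ 1) := by
  refine ⟨fun μ => Grp.T_fld c.hT _ _, fun μ L f v hL hf => ?_⟩
  rw [c.hT.cov _ _ L 0 f v hL hf, ← (finTwoArrowEquiv Ix).symm.sum_comp,
    Fintype.sum_prod_type]
  simp [finTwoArrowEquiv, Fin.prod_univ_two]

lemma adj_T : Adj (fun μ : Fin 2 → Ix => c.T (μ 0) (μ 1)) fun μ => c.T (μ 0) (μ 1) := by
  intro a f v w hf
  rw [op, op, sum_inner, inner_sum]
  exact Finset.sum_congr rfl fun μ _ => by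
    rw [inner_smul_left, inner_smul_right, c.hT.herm _ _ f v w hf]

/-- **`J T(f) J`** on the domain -/
theorem jt (m n : Ix) {f : Fn} (hf : GF.IsTest f) {v v' : D} (hv : c.J v = v') :
    c.J (c.T m n f v : D) =
      (((sj m * sj n : ℝ) : ℂ) • c.T m n (bar fun z => f (jr z)) v' : D) := by
  classical
  obtain ⟨g, rfl⟩ := hf
  obtain ⟨-, u, -, -, h1, -, h2⟩ := ST.exists_cut g
  let e := T.eqv rj rj (fun x => by rw [sim_rj, sim_rj, jr_jr]) fun x => by
    rw [sim_rj, sim_rj, jr_jr]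
  let B : Sch → Sch := fun g => SchwartzMap.postcompCLM (𝕜 := ℝ) (Complex.conjCLE : ℂ →L[ℝ] ℂ)
    (SchwartzMap.compCLMOfContinuousLinearEquiv ℂ e g)
  have hB : ∀ g, ev (B g) = bar fun z => ev g (jr z) := fun g =>
    funext fun z => congrArg (fun x => star (g x)) (sim_rj z)
  have cT := fun v => c.Q.cont _ v (Grp.T_fld c.hT m n)
  have cc := Completion.continuous_coe D
  refine tendsto_nhds_unique ((c.J.continuous.comp (cc.comp (cT v))).tendsto g |>.comp h2) ?_
  rw [← hB]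
  refine ((cc.comp (((cT v').comp (show Continuous B by fun_prop)).const_smul
    ((sj m * sj n : ℝ) : ℂ))).tendsto g |>.comp h2).congr fun i => ?_
  have k := key1 2 _ _ (Pi.single ![m, n] 1) (ev (u i)) v v' (ten_T c) (ten_T c) (adj_T c)
    ⟨⟨_, rfl⟩, h1 i, subset_univ _⟩ hv
  rw [T.op_single, jo, op, Finset.sum_eq_single ![m, n], tp_rj, cp_rj] at k
  · refine Eq.trans ?_ k.symm
    simp [hB]
    rfl
  · intro ν _ h
    simp [tp_rj, Pi.single_eq_of_ne h]
  · simp

theorem one (m n : Ix) (f : Fn) (hf : GF.IsTest f) : c.J (c.T m n f c.Q.vac : D) =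
    ((sj m * sj n : ℝ) : ℂ) • ((c.T m n (bar fun z => f (jr z)) c.Q.vac : D) : Completion D) := by
  rw [jt c m n hf c.E.J_xi, Completion.coe_smul]

theorem two (m n k l : Ix) (f g : Fn) (hf : GF.IsTest f) (hg : GF.IsTest g) :
    c.J (c.T m n f (c.T k l g c.Q.vac) : D) =
      ((sj m * sj n * (sj k * sj l) : ℝ) : ℂ) • ((c.T m n (bar fun z => f (jr z))
        (c.T k l (bar fun z => g (jr z)) c.Q.vac) : D) : Completion D) := by
  have t : GF.IsTest fun z => f (jr z) := cp_rj f ▸ test_jr hf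
  have e : ∀ (a : ℂ) v, c.T m n (bar fun z => f (jr z)) (a • v) =
      a • c.T m n (bar fun z => f (jr z)) v := fun a v => ext_inner_left ℂ fun w => by
    rw [← c.hT.herm m n _ _ _ t, inner_smul_right, inner_smul_right, c.hT.herm m n _ _ _ t]
  rw [jt c m n hf (jt c k l hg c.E.J_xi), e, smul_smul, Completion.coe_smul, ← Complex.ofReal_mul]

end Vale.Agent.P352X.ZZ.JCa
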