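import Vale.Agent.P352X.R.JC.B1
import Vale.Agent.P352Z.R.KD.B

/-!
# P352Z, row JC: the theorem of Borchers, `J S(t) J = S(-t)`
-/

namespace Vale.Agent.P352X.ZZ.Br
export Vale.Agent.P352X.Br (exists_calc gn_iff)
end Vale.Agent.P352X.ZZ.Br
namespace Vale.Agent.P352X.ZZ.JCb
export Vale.Agent.P352X.JCb (bd_ek bd_ind borchers diff_ek ek norm_ek)
end Vale.Agent.P352X.ZZ.JCb
namespace Vale.Agent.P352X.ZZ.KDa
export Vale.Agent.P352X.KDa (UG.add UG.at UG.cont UG.zero rc_zero)
end Vale.Agent.P352X.ZZ.KDa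

set_option linter.all false

noncomputable section

open MeasureTheory Filter Topology Complex
open scoped ComplexConjugate
open UniformSpace (Completion)

namespace Vale.Agent.P352X.ZZ.JCb

open Vale.Agent.P352 Vale.Agent.P352.GF Vale.Agent.P352.BW Vale.Agent.P352.H496
open Vale.Agent.P132 (ModData)
open SN (Calc)

section hilbert

variable {H : Type*} [NormedAddCommGroup H] [InnerProductSpace ℂ H] [CompleteSpace H]

variable {M : VonNeumannAlgebra H} {ξ : H}

end hilbert

variable {D : Type*} [NormedAddCommGroup D] [InnerProductSpace ℂ D]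

/-- **`J S(t) = S(-t) J`** -/
theorem S (c : Ctx D) (t : T0 c) (s : ℝ) (z : Completion D) :
    c.J (c.SK s z) = c.SK (-s) (c.J z) := by
  have g := t.grp
  have u := KDa.ugS g
  have hW : SN.URep fun t z => c.SK t z :=
    ⟨fun v => by rw [u.zero]; rfl, fun x y v => by rw [u.add]; rfl,
      fun x v w => ContinuousLinearMap.inner_map_map_of_mem_unitary (g.S_uni va x g.na) v w, u.cont⟩
  obtain ⟨C, hC⟩ := Br.exists_calc hW
  refine borchers c.E C hC (fun v => ?_) (fun t => c.hS.vac va t g.na) (fun r hr X hX => ?_)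
    (fun t r z => ?_) s z
  · refine Calc.ae_nonneg_of_form (r := fun p => p) measurable_id (fun w hw => ?_) v
    exact c.pos va w _ g.na ((Br.gn_iff C measurable_id fun t => hC t w).2 ⟨hw, rfl⟩)
  · rw [← KDa.rc_zero] at hX ⊢
    have := (g.geo 0 r X le_rfl hr).1 hX
    rw [sub_zero, zero_sub] at this
    exact c.hN.mono _ _ (KDa.rc_sub g le_rfl hr 0) _ this
  · rw [c.bw, c.bw, Bo, ← ContinuousLinearMap.mul_apply,
      g.sc_S _ _ _ (Real.exp_pos _) (Real.exp_pos _), Real.exp_neg (-_), div_inv_eq_mul, mul_comm r]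
    rfl

end Vale.Agent.P352X.ZZ.JCb
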