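import Vale.Agent.P352X.R.JC.B
import Vale.Agent.P352Z.R.JC.B1
import Vale.Agent.P352Z.R.JC.A1

/-!
# P352Z, row JC: wedge duality, and the polynomials in the fields as a core
-/

namespace Vale.Agent.P352X.ZZ.Grp
export Vale.Agent.P352X.Grp (Im.ext Im.mul affa alg coe uni ut ut0 vac)
end Vale.Agent.P352X.ZZ.Grp
namespace Vale.Agent.P352X.ZZ.JCa
export Vale.Agent.P352X.JCa (in_sim op_cov)
end Vale.Agent.P352X.ZZ.JCa
namespace Vale.Agent.P352X.ZZ.JCb
export Vale.Agent.P352X.JCb (Cv al_op comm_conj core_abs norm_ab wdg_l wdg_r wdg_tr)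
end Vale.Agent.P352X.ZZ.JCb
namespace Vale.Agent.P352X.ZZ.KDa
export Vale.Agent.P352X.KDa (UG.add UG.at UG.zero pr_map)
end Vale.Agent.P352X.ZZ.KDa
namespace Vale.Agent.P352X.ZZ.TO
export Vale.Agent.P352X.TO (tp)
end Vale.Agent.P352X.ZZ.TO

set_option linter.all false

noncomputable section

open MeasureTheory Filter Topology Set
open scoped ComplexConjugate BoundedContinuousFunction

namespace Vale.Agent.P352X.ZZ.JCb

open Vale.Agent.P352 Vale.Agent.P352.GF Vale.Agent.P352.BW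
open Vale.Agent.P352.H246 Vale.Agent.P352.H496 Vale.Agent.P352.H755 Vale.Agent.P352.H15
open Vale.Agent.P352.BW.T (Ten op tp bq)
open Vale.Agent.P352.BW.H49 (Adj)
open Vale.Agent.P132 (ModData)
open UniformSpace (Completion)

section hilbert

variable {H : Type*} [NormedAddCommGroup H] [InnerProductSpace ℂ H] [CompleteSpace H]
  {M M' : VonNeumannAlgebra H} {ξ : H}

end hilbert

variable {D : Type*} [NormedAddCommGroup D] [InnerProductSpace ℂ D]

/-- **wedge duality** -/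
theorem dual (c : Ctx D) (t : T0 c) (a b y : V) (ha : IsNull a) (hb : IsNull b)
    (hab : 0 < GF.mdot a b) : (c.N (Wdg a b y)).commutant = c.N (Wdg b a y) := by
  obtain ⟨b, hb, hab, e⟩ := norm_ab hb hab
  rw [(e y).1, (e y).2]
  have g := t.grp
  have hu := g.uni 1 GF.one y
  ext X
  have s : Ug c.Q 1 GF.one y * (star (Ug c.Q 1 GF.one y) * X * Ug c.Q 1 GF.one y) *
      star (Ug c.Q 1 GF.one y) = X := by
    simp only [← mul_assoc]
    rw [hu.2, one_mul, mul_assoc, hu.2, mul_one]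
  rw [← s, ← wdg_tr a b, ← wdg_tr b a, ← g.alg _ _ _ _ one_pos H496.isLor_one,
    ← comm_conj hu (g.alg _ _ _ _ one_pos H496.isLor_one)]
  exact ((H268.s0 c.hG c.hN).vnet.dual a b _ ha hb hab).symm

/-- **the polynomials in the fields in the opposite wedge detect the pairs** -/
theorem core (c : Ctx D) (t : T0 c) (a b y : V) (ψ ψ' : Completion D) (ha : IsNull a)
    (hb : IsNull b) (hab : 0 < GF.mdot a b)
    (h : ∀ X X', Al c.Q (Wdg b a y) X X' → inner ℂ ((X' c.Q.vac : D) : Completion D) ψ =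
      inner ℂ ψ' ((X c.Q.vac : D) : Completion D)) : Pr (c.N (Wdg a b y)) c.Om ψ ψ' := by
  obtain ⟨b, hb, hab, e⟩ := norm_ab hb hab
  rw [(e y).2] at h
  rw [(e y).1]
  have g := t.grp
  have R := c.hN.toRep
  have t1 := T.t1 _ _ R
  have hba : GF.mdot b a = 1 := by rw [md_comm]; exact hab
  have hL := T.isLor_bq hb ha hba
  have h1 := H496.isLor_one
  obtain ⟨E⟩ := c.hN.modW hb ha hba
  let S : Submodule ℂ D :=
    { carrier := {v | ∃ X X', Al c.Q (Wdg b a 0) X X' ∧ v = X c.Q.vac ∧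
        ∀ s, Cv c.Q (Wdg b a y) (bq b a s) (sim 1 (bq b a s) 0 (-y)) X X'}
      add_mem' := by
        rintro _ _ ⟨X, X', a1, rfl, a2⟩ ⟨Z, Z', b1, rfl, b2⟩
        refine ⟨_, _, Al.add _ _ _ _ a1 b1, rfl, fun s => ?_⟩
        obtain ⟨Y, Y', a3, a4, a5⟩ := a2 s
        obtain ⟨W, W', b3, b4, b5⟩ := b2 s
        exact ⟨_, _, Al.add _ _ _ _ a3 b3, fun w => by simp only [U_add one_pos (hL s), a4, b4],
          fun w => by simp only [U_add one_pos (hL s), a5, b5]⟩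
      zero_mem' := by
        have e : ∀ s y, c.Q.U 1 (bq b a s) y 0 = 0 := fun s y => by
          simpa using U_smul (Q := c.Q) one_pos (hL s) y 0 0
        exact ⟨_, _, Al.zero, rfl, fun s => ⟨_, _, Al.zero, fun _ => (e _ _).symm,
          fun _ => (e _ _).symm⟩⟩
      smul_mem' := by
        rintro r _ ⟨X, X', a1, rfl, a2⟩
        refine ⟨_, _, Al.smul r _ _ a1, rfl, fun s => ?_⟩
        obtain ⟨Y, Y', a3, a4, a5⟩ := a2 s
        exact ⟨_, _, Al.smul r _ _ a3, fun w => by simp only [U_smul one_pos (hL s), a4],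
          fun w => by simp only [U_smul one_pos (hL s), a5]⟩ }
  have hd : Dense (S : Set D) := by
    refine T.r1 (T.t1 _ _) R c.hG b a hb ha hba S
      ⟨_, _, Al.one, rfl, fun s => ⟨_, _, Al.one, fun _ => rfl, fun _ => rfl⟩⟩ ?_
    rintro k Φ α f _ hΦ hf ⟨X, X', a1, rfl, a2⟩
    obtain ⟨Ψ, hΨ, ad⟩ := T.adj_of R hΦ
    refine ⟨_, _, (al_op hΦ hΨ ad α hf).mul a1, rfl, fun s => ?_⟩
    obtain ⟨Y, Y', a3, a4, a5⟩ := a2 s
    have hg := JCa.in_sim one_pos (hL s) (sim 1 (bq b a s) 0 (-y)) hf (O' := Wdg b a y) (by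
      intro x ⟨x1, x2⟩
      have b1 := T.bst_sim hb ha hba (Real.exp (-(2 * Real.pi * s)) - 1)
        (Real.exp (2 * Real.pi * s) - 1)
      have n : ∀ v : V, GF.mdot v (-y) = -GF.mdot v y := fun v => by
        rw [← neg_one_smul ℝ y, md_smul, neg_one_mul]
      rw [sub_zero, HM.sim_at, md_add, bq] at x1 x2
      rw [(b1 _).1, (b1 _).1, add_sub_cancel, n, ← mul_add] at x1
      rw [(b1 _).2, (b1 _).2, add_sub_cancel, n, ← mul_add] at x2
      exact ⟨by rw [md_sub]; nlinarith [Real.exp_pos (2 * Real.pi * s)],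
        by rw [md_sub]; nlinarith [Real.exp_pos (-(2 * Real.pi * s))]⟩)
    refine ⟨_, _, (al_op hΦ hΨ ad (tp (bq b a s) α) hg).mul a3, fun w => ?_, fun w => ?_⟩ <;>
      beta_reduce
    · rw [a4, JCa.op_cov R hΦ _ (hL s) _ hf.1]
    · rw [JCa.op_cov R hΨ _ (hL s) _ (T.test_bar hf.1), a5, (t1.cj k α _ f).1]
      rfl
  let u := Ug c.Q 1 GF.one (-y)
  have hu : u ∈ unitary _ := g.uni _ _ _
  have eU : ∀ s (w : D), (c.Q.U 1 (bq b a s) (sim 1 (bq b a s) 0 (-y)) w : D) = E.U s (u w) := by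
    intro s w
    rw [c.hN.bw c.hG b a s _ E _ hb ha hba (hL s) fun x => sim_bst _ _ _ _ x,
      ← Ug_apply _ one_pos (hL s), ← ContinuousLinearMap.mul_apply,
      g.mul _ _ _ _ _ _ one_pos one_pos (hL s) h1, one_mul, ← g.coe _ _ _ _ one_pos (hL s)]
    congr 2
    funext m n
    simp [sim, GF.one, bas]
  have p0 : Pr (c.N (Wdg a b 0)) c.Om (u ψ) (u ψ') := by
    intro Z hZ
    rw [dual c t a b 0 ha hb (hab ▸ one_pos)] at hZ
    refine core_abs E (P := {p | ∃ X X', Al c.Q (Wdg b a 0) X X' ∧ p = (↑(X c.Q.vac), ↑(X' c.Q.vac)) ∧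
      ∀ s, Cv c.Q (Wdg b a y) (bq b a s) (sim 1 (bq b a s) 0 (-y)) X X'}) ?_ ?_ ?_ hZ
    · rintro _ ⟨X, X', a1, rfl, -⟩ Y hY
      rw [ContinuousLinearMap.star_eq_adjoint, ContinuousLinearMap.adjoint_inner_left]
      exact ((g.affa _ _ _ a1).2 Y hY _ _).symm
    · refine (Completion.denseRange_coe.dense_image (Completion.continuous_coe D) hd).mono ?_
      rintro _ ⟨_, ⟨X, X', a1, rfl, a2⟩, rfl⟩
      exact ⟨_, ⟨X, X', a1, rfl, a2⟩, rfl⟩
    · rintro _ ⟨X, X', -, rfl, a2⟩ s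
      obtain ⟨Y, Y', a3, a4, a5⟩ := a2 (-s)
      have a6 := a4 c.Q.vac
      have a7 := a5 c.Q.vac
      rw [c.Q.U_vac _ _ _ one_pos (hL _)] at a6 a7
      show inner ℂ (E.U s (X' c.Q.vac : D)) _ = inner ℂ _ (E.U s (X c.Q.vac : D))
      rw [a6, a7, eU, eU, E.U_apply_neg, E.U_apply_neg,
        ContinuousLinearMap.inner_map_map_of_mem_unitary hu,
        ContinuousLinearMap.inner_map_map_of_mem_unitary hu, h _ _ a3]
  have p1 := KDa.pr_map (M' := c.N (Wdg a b y)) (g.uni 1 GF.one y) (g.vac _ _ _)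
    (fun X hX => wdg_tr a b y ▸ (g.alg _ _ _ _ one_pos h1 X).1 hX) p0
  have e1 : ∀ z, Ug c.Q 1 GF.one y (u z) = z := fun z => by
    show (Ut c.Q y * Ut c.Q (-y)) z = z
    rw [← g.ut, add_neg_cancel, g.ut0]
    rfl
  rwa [e1, e1] at p1

end Vale.Agent.P352X.ZZ.JCb
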